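import Mathlib
import Vale.Agent.Lib.P015.Walls

/-!
# P015: a bounded-step walk on Gaussian primes is infinitely often at distance
`> log |z| / (106 (2 D + 1) log log |z|)` from any given straight line
-/

namespace Vale.Agent.Results.P015.CriticalWidth

open Vale.Agent.Lib.P015.Walls

lemma aux (c D n0 w y s : ℝ) (hD : 0 ≤ D) (hn0 : 0 ≤ n0)
    (hw4A : 4 * (|c| + D + n0 + 3) ≤ w) (hwy : w * (106 * (2 * D + 1) * s) = y)
    (hs1 : 2544 ≤ s) (hy : y = Real.exp s) :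
    n0 + 1 + Real.exp (2 * ((4 * (3 * w + |c|) + 2) * (2 * D + 1))
        * Real.log ((3 * w + |c|) ^ 2 + (2 + D) ^ 2)) * (n0 + 2 * D + (3 * w + |c|) + 3)
        + D + 2 ≤ Real.exp y - D - w - |c| := by
  have hc0 : 0 ≤ |c| := abs_nonneg c
  obtain ⟨C, hC⟩ : ∃ C, C = |c| := ⟨_, rfl⟩
  rw [← hC] at hc0 hw4A ⊢
  have hwpos : 0 < w := by linarith
  have hwy' : 100 * w ≤ y := by
    rw [← hwy]
    have h1 : 100 ≤ 106 * (2 * D + 1) * s := by nlinarith
    nlinarith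
  obtain ⟨H, hH⟩ : ∃ H, H = 3 * w + C := ⟨_, rfl⟩
  rw [← hH]
  have hH0 : 0 ≤ H := by rw [hH]; linarith
  have hH1 : H ≤ 13 / 4 * w := by rw [hH]; linarith
  obtain ⟨B, hB⟩ : ∃ B, B = H ^ 2 + (2 + D) ^ 2 := ⟨_, rfl⟩
  rw [← hB]
  have hB1 : 1 ≤ B := by rw [hB]; nlinarith [sq_nonneg H]
  have h2D : 2 + D ≤ w / 4 := by linarith
  have hBy : B ≤ y ^ 2 := by
    have h1 : H ^ 2 ≤ (13 / 4 * w) ^ 2 := pow_le_pow_left₀ hH0 hH1 2
    have h2 : (2 + D) ^ 2 ≤ (w / 4) ^ 2 := pow_le_pow_left₀ (by linarith) h2D 2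
    have h3 : (100 * w) ^ 2 ≤ y ^ 2 := pow_le_pow_left₀ (by linarith) hwy' 2
    rw [hB]; nlinarith [sq_nonneg w]
  have hlogB0 : 0 ≤ Real.log B := Real.log_nonneg hB1
  have hlogB : Real.log B ≤ 2 * s := by
    have h1 := Real.log_le_log (by linarith) hBy
    rw [Real.log_pow, hy, Real.log_exp] at h1
    exact_mod_cast h1
  obtain ⟨lB, hlB⟩ : ∃ lB, lB = Real.log B := ⟨_, rfl⟩
  rw [← hlB] at hlogB0 hlogB ⊢
  obtain ⟨E, hE⟩ : ∃ E, E = (4 * H + 2) * (2 * D + 1) := ⟨_, rfl⟩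
  rw [← hE]
  have hE0 : 0 ≤ E := by rw [hE]; positivity
  have hE1 : E ≤ 53 / 4 * w * (2 * D + 1) := by
    rw [hE]
    apply mul_le_mul_of_nonneg_right _ (by linarith)
    linarith
  have hexpo : 2 * E * lB ≤ y / 2 := by
    calc 2 * E * lB ≤ (2 * (53 / 4 * w * (2 * D + 1))) * (2 * s) := by
          apply mul_le_mul (by linarith) hlogB hlogB0 (by positivity)
      _ = w * (106 * (2 * D + 1) * s) / 2 := by ring
      _ = y / 2 := by rw [hwy]
  have hexp1 : Real.exp (2 * E * lB) ≤ Real.exp (y / 2) := Real.exp_le_exp.mpr hexpo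
  have hP : n0 + 2 * D + H + 3 ≤ y := by linarith
  have hP0 : 0 ≤ n0 + 2 * D + H + 3 := by linarith
  have hR : n0 + 3 + 2 * D + w + C ≤ y := by linarith
  have hy12 : 12 ≤ y := by linarith
  have h2y : 2 * y ≤ Real.exp (y / 2) := by
    have := Real.quadratic_le_exp_of_nonneg (by linarith : (0 : ℝ) ≤ y / 2)
    nlinarith
  have hexpy : Real.exp (y / 2) * Real.exp (y / 2) = Real.exp y := by
    rw [← Real.exp_add]; congr 1; ring
  obtain ⟨e2, he2⟩ : ∃ e2, e2 = Real.exp (y / 2) := ⟨_, rfl⟩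
  rw [← he2] at hexp1 h2y hexpy
  have hmain : e2 * y + y ≤ Real.exp y := by
    rw [← hexpy]
    nlinarith
  have hfin : Real.exp (2 * E * lB) * (n0 + 2 * D + H + 3) ≤ e2 * y :=
    mul_le_mul hexp1 hP hP0 (by linarith)
  linarith

lemma star_crit (c D n0 : ℝ) (hD : 0 ≤ D) (hn0 : 0 ≤ n0) :
    ∃ X, Real.exp (Real.exp 1) ≤ X ∧
      n0 + 1 + Real.exp (2 * ((4 * (3 * (Real.log X / (106 * (2 * D + 1) * Real.log (Real.log X))) + |c|) + 2)
          * (2 * D + 1))
        * Real.log ((3 * (Real.log X / (106 * (2 * D + 1) * Real.log (Real.log X))) + |c|) ^ 2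
          + (2 + D) ^ 2))
        * (n0 + 2 * D + (3 * (Real.log X / (106 * (2 * D + 1) * Real.log (Real.log X))) + |c|) + 3)
        + D + 2 ≤ X - D - (Real.log X / (106 * (2 * D + 1) * Real.log (Real.log X))) - |c| := by
  have hc0 : 0 ≤ |c| := abs_nonneg c
  obtain ⟨s, hs⟩ : ∃ s, s = 8 * (|c| + D + n0 + 3) * (106 * (2 * D + 1)) := ⟨_, rfl⟩
  have hs1 : 2544 ≤ s := by rw [hs]; nlinarith
  have hspos : 0 < s := by linarith
  have hys : s ^ 2 / 2 ≤ Real.exp s := by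
    have := Real.quadratic_le_exp_of_nonneg hspos.le
    linarith
  refine ⟨Real.exp (Real.exp s), ?_, ?_⟩
  · apply Real.exp_le_exp.mpr
    apply Real.exp_le_exp.mpr
    linarith
  · rw [Real.log_exp, Real.log_exp]
    have hκs : 0 < 106 * (2 * D + 1) * s := by positivity
    refine aux c D n0 (Real.exp s / (106 * (2 * D + 1) * s)) (Real.exp s) s hD hn0 ?_ ?_ hs1 rfl
    · rw [le_div_iff₀ hκs]
      have : 4 * (|c| + D + n0 + 3) * (106 * (2 * D + 1) * s) = s ^ 2 / 2 := by rw [hs]; ring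
      linarith
    · field_simp

lemma mono_crit (κ : ℝ) (hκ : 0 < κ) :
    MonotoneOn (fun x : ℝ => Real.log x / (κ * Real.log (Real.log x)))
      (Set.Ici (Real.exp (Real.exp 1))) := by
  intro x hx y hy hxy
  have hx' : Real.exp (Real.exp 1) ≤ x := hx
  have hxpos : 0 < x := lt_of_lt_of_le (Real.exp_pos _) hx'
  have hlx : Real.exp 1 ≤ Real.log x := (Real.le_log_iff_exp_le hxpos).mpr hx'
  have hlxpos : 0 < Real.log x := lt_of_lt_of_le (Real.exp_pos _) hlx
  have hlxy : Real.log x ≤ Real.log y := Real.log_le_log hxpos hxy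
  have hlypos : 0 < Real.log y := lt_of_lt_of_le hlxpos hlxy
  obtain ⟨s, hs⟩ : ∃ s, s = Real.log (Real.log x) := ⟨_, rfl⟩
  obtain ⟨s', hs'⟩ : ∃ s', s' = Real.log (Real.log y) := ⟨_, rfl⟩
  have hs1 : 1 ≤ s := by rw [hs]; exact (Real.le_log_iff_exp_le hlxpos).mpr hlx
  have hss' : s ≤ s' := by rw [hs, hs']; exact Real.log_le_log hlxpos hlxy
  have e1 : Real.log x = Real.exp s := by rw [hs]; exact (Real.exp_log hlxpos).symm
  have e2 : Real.log y = Real.exp s' := by rw [hs']; exact (Real.exp_log hlypos).symm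
  show Real.log x / (κ * Real.log (Real.log x)) ≤ Real.log y / (κ * Real.log (Real.log y))
  have hspos : 0 < s := by linarith
  have hs'pos : 0 < s' := by linarith
  rw [← hs, ← hs', e1, e2, div_le_div_iff₀ (by positivity) (by positivity)]
  obtain ⟨δ, hδ⟩ : ∃ δ, δ = s' - s := ⟨_, rfl⟩
  have hδ0 : 0 ≤ δ := by rw [hδ]; linarith
  have e3 : Real.exp s' = Real.exp s * Real.exp δ := by
    rw [← Real.exp_add, hδ]; congr 1; ring
  have e4 := Real.add_one_le_exp δ
  have e5 : s' = s + δ := by rw [hδ]; ring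
  rw [e3, e5, mul_assoc (Real.exp s)]
  apply mul_le_mul_of_nonneg_left _ (Real.exp_pos s).le
  have e6 : s + δ ≤ (δ + 1) * s := by nlinarith
  calc κ * (s + δ) ≤ κ * ((δ + 1) * s) := mul_le_mul_of_nonneg_left e6 hκ.le
    _ ≤ κ * (Real.exp δ * s) := by
        apply mul_le_mul_of_nonneg_left _ hκ.le
        exact mul_le_mul_of_nonneg_right e4 (by linarith)
    _ = Real.exp δ * (κ * s) := by ring

theorem result (a b c D : ℝ) (hab : a ^ 2 + b ^ 2 = 1)
    (z : ℕ → GaussianInt) (hinj : Function.Injective z) (hp : ∀ n, Prime (z n))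
    (hstep : ∀ n, ‖((z (n + 1) : GaussianInt) : ℂ) - (z n : ℂ)‖ ≤ D) :
    ∃ᶠ n in Filter.atTop,
      Real.log ‖(z n : ℂ)‖ / (106 * (2 * D + 1) * Real.log (Real.log ‖(z n : ℂ)‖))
        < |a * ((z n).re : ℝ) + b * ((z n).im : ℝ) - c| := by
  have hD : 0 ≤ D := le_trans (norm_nonneg _) (hstep 0)
  by_contra hcon
  rw [Filter.not_frequently] at hcon
  refine general_core a b c D hab
    (fun x : ℝ => Real.log x / (106 * (2 * D + 1) * Real.log (Real.log x)))
    (Real.exp (Real.exp 1)) (mono_crit _ (by positivity)) ?_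
    (fun n0 hn0 => star_crit c D n0 hD hn0) z hinj hp hstep ?_
  · intro x hx
    have hxpos : 0 < x := lt_of_lt_of_le (Real.exp_pos _) hx
    have hlx : Real.exp 1 ≤ Real.log x := (Real.le_log_iff_exp_le hxpos).mpr hx
    have hlxpos : 0 < Real.log x := lt_of_lt_of_le (Real.exp_pos _) hlx
    have hs1 : 1 ≤ Real.log (Real.log x) := (Real.le_log_iff_exp_le hlxpos).mpr hlx
    have : 0 ≤ Real.log (Real.log x) := by linarith
    positivity
  · filter_upwards [hcon] with n hn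
    exact not_lt.mp hn

end Vale.Agent.Results.P015.CriticalWidth
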