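import Mathlib
import Vale.Agent.Lib.P015.Walls

/-!
# P015: a bounded-step walk on Gaussian primes leaves every slowly widening strip

Every infinite sequence of distinct Gaussian primes with bounded steps is, infinitely often, at
distance more than `log |z| / (log log |z|)^2` from any given straight line.
-/

namespace Vale.Agent.Results.P015.FarFromEveryLine

open Vale.Agent.Lib.P015.Walls

/-- the comparison function `log x / (log log x)^2` -/
lemma mono_f : MonotoneOn (fun x : ℝ => Real.log x / (Real.log (Real.log x)) ^ 2)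
    (Set.Ici (Real.exp (Real.exp 2))) := by
  intro x hx y hy hxy
  have hx' : Real.exp (Real.exp 2) ≤ x := hx
  have hxpos : 0 < x := lt_of_lt_of_le (Real.exp_pos _) hx'
  have hypos : 0 < y := lt_of_lt_of_le hxpos hxy
  have hlx : Real.exp 2 ≤ Real.log x := (Real.le_log_iff_exp_le hxpos).mpr hx'
  have hlxpos : 0 < Real.log x := lt_of_lt_of_le (Real.exp_pos _) hlx
  have hlxy : Real.log x ≤ Real.log y := Real.log_le_log hxpos hxy
  have hlypos : 0 < Real.log y := lt_of_lt_of_le hlxpos hlxy
  set s := Real.log (Real.log x) with hs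
  set s' := Real.log (Real.log y) with hs'
  have hs2 : 2 ≤ s := (Real.le_log_iff_exp_le hlxpos).mpr hlx
  have hss' : s ≤ s' := Real.log_le_log hlxpos hlxy
  have e1 : Real.log x = Real.exp s := (Real.exp_log hlxpos).symm
  have e2 : Real.log y = Real.exp s' := (Real.exp_log hlypos).symm
  show Real.log x / s ^ 2 ≤ Real.log y / s' ^ 2
  rw [e1, e2, div_le_div_iff₀ (by positivity) (by nlinarith)]
  set δ := s' - s with hδ
  have hδ0 : 0 ≤ δ := by rw [hδ]; linarith
  have e3 : Real.exp s' = Real.exp s * Real.exp δ := by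
    rw [← Real.exp_add, hδ]; congr 1; ring
  have e4 := Real.quadratic_le_exp_of_nonneg hδ0
  have e5 : s' = s + δ := by rw [hδ]; ring
  rw [e3, e5, mul_assoc]
  apply mul_le_mul_of_nonneg_left _ (Real.exp_pos s).le
  have e6 : (s + δ) ^ 2 ≤ (1 + δ + δ ^ 2 / 2) * s ^ 2 := by
    have h1 : 2 * s ≤ s ^ 2 := by nlinarith
    have h2 : 4 ≤ s ^ 2 := by nlinarith
    nlinarith [mul_nonneg hδ0 hδ0, mul_nonneg hδ0 (sub_nonneg.mpr h1),
      mul_nonneg (mul_nonneg hδ0 hδ0) (sub_nonneg.mpr h2)]
  calc (s + δ) ^ 2 ≤ (1 + δ + δ ^ 2 / 2) * s ^ 2 := e6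
    _ ≤ Real.exp δ * s ^ 2 := mul_le_mul_of_nonneg_right e4 (sq_nonneg s)

lemma growth_f (K : ℝ) (hK : 1 ≤ K) :
    ∃ x, Real.exp (Real.exp 2) ≤ x ∧ 0 < x ∧
      K * (Real.log x / (Real.log (Real.log x)) ^ 2 + K)
        * Real.log (Real.log x / (Real.log (Real.log x)) ^ 2 + K) ≤ Real.log x := by
  set s : ℝ := 6 * K with hs
  have hs6 : 6 ≤ s := by rw [hs]; linarith
  refine ⟨Real.exp (Real.exp s), ?_, Real.exp_pos _, ?_⟩
  · exact Real.exp_le_exp.mpr (Real.exp_le_exp.mpr (by linarith))
  · rw [Real.log_exp, Real.log_exp]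
    set F : ℝ := Real.exp s / s ^ 2 with hF
    have hspos : 0 < s := by linarith
    have h1 : s ^ 3 / 6 ≤ Real.exp s := by
      have := Real.pow_div_factorial_le_exp s hspos.le 3
      simpa [Nat.factorial] using this
    have hKF : K ≤ F := by
      rw [hF, le_div_iff₀ (by positivity)]
      have : K * s ^ 2 = s ^ 3 / 6 := by rw [hs]; ring
      linarith
    have hF2 : F + K ≤ 2 * F := by linarith
    have hFe : 2 * F ≤ Real.exp s := by
      rw [hF]
      have : 2 * (Real.exp s / s ^ 2) = Real.exp s * (2 / s ^ 2) := by ring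
      rw [this]
      have h2 : 2 / s ^ 2 ≤ 1 := by
        rw [div_le_one (by positivity)]; nlinarith
      have := Real.exp_pos s
      nlinarith
    have hFK1 : 1 ≤ F + K := by
      have : 0 ≤ F := by rw [hF]; positivity
      linarith
    have hlog0 : 0 ≤ Real.log (F + K) := Real.log_nonneg hFK1
    have hlog : Real.log (F + K) ≤ s := by
      have := Real.log_le_log (by linarith) (le_trans hF2 hFe)
      rwa [Real.log_exp] at this
    calc K * (F + K) * Real.log (F + K) ≤ K * (2 * F) * s := by
          apply mul_le_mul _ hlog hlog0 (by positivity)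
          exact mul_le_mul_of_nonneg_left hF2 (by linarith)
      _ = Real.exp s * (2 * K / s) := by rw [hF]; field_simp
      _ ≤ Real.exp s * 1 := by
          apply mul_le_mul_of_nonneg_left _ (Real.exp_pos s).le
          rw [div_le_one hspos, hs]; linarith
      _ = Real.exp s := mul_one _

theorem result (a b c D : ℝ) (hab : a ^ 2 + b ^ 2 = 1)
    (z : ℕ → GaussianInt) (hinj : Function.Injective z) (hp : ∀ n, Prime (z n))
    (hstep : ∀ n, ‖((z (n + 1) : GaussianInt) : ℂ) - (z n : ℂ)‖ ≤ D) :
    ∃ᶠ n in Filter.atTop,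
      Real.log ‖(z n : ℂ)‖ / (Real.log (Real.log ‖(z n : ℂ)‖)) ^ 2
        < |a * ((z n).re : ℝ) + b * ((z n).im : ℝ) - c| := by
  by_contra hcon
  rw [Filter.not_frequently] at hcon
  refine general a b c D hab (fun x : ℝ => Real.log x / (Real.log (Real.log x)) ^ 2)
    (Real.exp (Real.exp 2)) mono_f ?_ growth_f z hinj hp hstep ?_
  · intro x hx
    have h1 : (1 : ℝ) ≤ x := by
      have := Real.add_one_le_exp (Real.exp 2)
      have h2 := Real.exp_pos 2
      linarith
    have := Real.log_nonneg h1
    positivity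
  · filter_upwards [hcon] with n hn
    exact not_lt.mp hn

end Vale.Agent.Results.P015.FarFromEveryLine
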