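import Mathlib

/-!
# P015 (Gaussian moat problem): no bounded-step prime walk along any straight line

An infinite sequence of pairwise distinct Gaussian primes with bounded steps cannot stay within
bounded distance of a straight line `a x + b y = c`, whatever the (possibly irrational) slope and
position of the line.
-/

namespace Vale.Agent.Results.P015.StripAnyLine

open Zsqrtd

/-- Around a multiple `C` of `R!`, a Gaussian prime of norm `> R` is either within distance `1`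
of `C` or at squared distance `> R`. -/
lemma annulus (R : ℕ) (C w : GaussianInt) (hC : ((R.factorial : ℤ) : GaussianInt) ∣ C)
    (hw : Prime w) (hbig : (R : ℤ) < w.norm) :
    (w - C).norm ≤ 1 ∨ (R : ℤ) < (w - C).norm := by
  by_contra hcon
  obtain ⟨h1', h2'⟩ := not_or.mp hcon
  have h1 := not_le.mp h1'
  have h2 := not_lt.mp h2'
  set a := w - C with ha
  have hdiv1 : a ∣ ((a.norm : ℤ) : GaussianInt) := by
    rw [Zsqrtd.norm_eq_mul_conj]; exact dvd_mul_right _ _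
  have hdiv2 : (a.norm : ℤ) ∣ (R.factorial : ℤ) := by
    have h3 : a.norm.natAbs ∣ R.factorial := Nat.dvd_factorial (by omega) (by omega)
    exact Int.natAbs_dvd.mp (Int.natCast_dvd_natCast.mpr h3)
  have hdiv3 : ((a.norm : ℤ) : GaussianInt) ∣ ((R.factorial : ℤ) : GaussianInt) :=
    (Int.castRingHom GaussianInt).map_dvd hdiv2
  have hdivC : a ∣ C := hdiv1.trans (hdiv3.trans hC)
  have hdivw : a ∣ w := by
    have h4 : w = a + C := by rw [ha]; ring
    rw [h4]; exact dvd_add dvd_rfl hdivC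
  rcases (hw.irreducible.dvd_iff).mp hdivw with hu | hassoc
  · have h5 := (Zsqrtd.norm_eq_one_iff' (by norm_num) a).mpr hu
    omega
  · have h5 := Zsqrtd.norm_eq_of_associated (by norm_num) hassoc
    omega

lemma sign_const (f : ℕ → ℝ) (δ : ℝ) (hδ : 0 ≤ δ) (h1 : ∀ n, δ < f n ^ 2)
    (h2 : ∀ n, (f (n + 1) - f n) ^ 2 ≤ δ) : ∀ n, 0 < f 0 * f n := by
  intro n
  induction n with
  | zero => have := h1 0; nlinarith
  | succ n ih =>
    have h3 : 0 < f n * f (n + 1) := by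
      have e1 := h1 n
      have e2 := h1 (n + 1)
      have e3 := h2 n
      nlinarith
    by_contra hneg'
    have hneg := not_lt.mp hneg'
    have h4 : 0 < (f 0 * f n) * (f n * f (n + 1)) := mul_pos ih h3
    have h5 : (f 0 * f n) * (f n * f (n + 1)) = (f 0 * f (n + 1)) * (f n) ^ 2 := by ring
    have h6 : 0 ≤ (f n) ^ 2 := sq_nonneg _
    nlinarith

lemma norm_real (g : GaussianInt) : (g.norm : ℝ) = ‖(g : ℂ)‖ ^ 2 := by
  rw [GaussianInt.intCast_real_norm, Complex.normSq_eq_norm_sq]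

lemma norm_real' (g : GaussianInt) : (g.norm : ℝ) = (g.re : ℝ) ^ 2 + (g.im : ℝ) ^ 2 := by
  rw [Zsqrtd.norm]; push_cast; ring

lemma core (a b c W D : ℝ) (hρ : 0 < a ^ 2 + b ^ 2) (hD : 0 ≤ D) (z : ℕ → GaussianInt)
    (hp : ∀ n, Prime (z n))
    (hstep : ∀ n, ‖((z (n + 1) : GaussianInt) : ℂ) - (z n : ℂ)‖ ≤ D)
    (hstrip : ∀ n, |a * ((z n).re : ℝ) + b * ((z n).im : ℝ) - c| ≤ W)
    (R : ℕ) (hR1 : (1 + D) ^ 2 ≤ R)
    (hR2 : (3 * W + |c|) ^ 2 + (a ^ 2 + b ^ 2) * D ^ 2 ≤ (a ^ 2 + b ^ 2) * R)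
    (hbig : ∀ n, (R : ℤ) < (z n).norm)
    (i j : ℕ) (hcong : ((R.factorial : ℤ) : GaussianInt) ∣ z j - z i)
    (hs : (-b * ((z i).re : ℝ) + a * ((z i).im : ℝ)) *
      (2 * (-b * ((z i).re : ℝ) + a * ((z i).im : ℝ))
        - (-b * ((z j).re : ℝ) + a * ((z j).im : ℝ))) < 0) : False := by
  set C := z j - z i with hC
  have F1 : ∀ n, (z n - C).norm ≤ 1 ∨ (R : ℤ) < (z n - C).norm :=
    fun n => annulus R C (z n) hcong (hp n) (hbig n)
  have hR1' : (1 : ℝ) ≤ R := by nlinarith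
  have hR1'' : (1 : ℤ) ≤ R := by exact_mod_cast hR1'
  -- closeness propagates along the walk
  have prop : ∀ u v : GaussianInt, ‖(u : ℂ) - (v : ℂ)‖ ≤ D → (u - C).norm ≤ 1 →
      ((v - C).norm ≤ 1 ∨ (R : ℤ) < (v - C).norm) → (v - C).norm ≤ 1 := by
    intro u v huv hu hv
    rcases hv with hv | hv
    · exact hv
    · exfalso
      have h1 : ((u - C).norm : ℝ) ≤ 1 := by exact_mod_cast hu
      rw [norm_real] at h1
      have h2 : ‖((u - C : GaussianInt) : ℂ)‖ ≤ 1 := by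
        have := norm_nonneg ((u - C : GaussianInt) : ℂ)
        nlinarith
      have h3 : ((v - C : GaussianInt) : ℂ) = ((u - C : GaussianInt) : ℂ) - ((u : ℂ) - (v : ℂ)) := by
        simp only [GaussianInt.toComplex_sub]; ring
      have h4 : ‖((v - C : GaussianInt) : ℂ)‖ ≤ 1 + D := by
        rw [h3]
        calc _ ≤ ‖((u - C : GaussianInt) : ℂ)‖ + ‖(u : ℂ) - (v : ℂ)‖ := norm_sub_le _ _
          _ ≤ 1 + D := add_le_add h2 huv
      have h5 : ((v - C).norm : ℝ) ≤ R := by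
        rw [norm_real]
        have := norm_nonneg ((v - C : GaussianInt) : ℂ)
        nlinarith
      have h6 : ((v - C).norm : ℤ) ≤ R := by exact_mod_cast h5
      omega
  have F2 : ∀ n, (z n - C).norm ≤ 1 ↔ (z (n + 1) - C).norm ≤ 1 := by
    intro n
    constructor
    · intro h
      refine prop (z n) (z (n + 1)) ?_ h (F1 (n + 1))
      rw [norm_sub_rev]; exact hstep n
    · intro h
      exact prop (z (n + 1)) (z n) (hstep n) h (F1 n)
  have F2' : ∀ n, (z n - C).norm ≤ 1 ↔ (z 0 - C).norm ≤ 1 := by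
    intro n
    induction n with
    | zero => rfl
    | succ n ih => rw [← F2 n, ih]
  have hj : ¬ (z j - C).norm ≤ 1 := by
    have h1 : z j - C = z i := by rw [hC]; ring
    rw [h1]
    have := hbig i
    omega
  have F4 : ∀ n, (R : ℤ) < (z n - C).norm := by
    intro n
    rcases F1 n with h | h
    · exact absurd ((F2' j).mpr ((F2' n).mp h)) hj
    · exact h
  -- longitudinal coordinate relative to C
  set f : ℕ → ℝ := fun n => -b * ((z n - C).re : ℝ) + a * ((z n - C).im : ℝ) with hf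
  have hLbound : ∀ n, |a * ((z n - C).re : ℝ) + b * ((z n - C).im : ℝ)| ≤ 3 * W + |c| := by
    intro n
    have e1 := hstrip n
    have e2 := hstrip i
    have e3 := hstrip j
    have h1 : a * ((z n - C).re : ℝ) + b * ((z n - C).im : ℝ)
        = (a * ((z n).re : ℝ) + b * ((z n).im : ℝ) - c) - (a * ((z j).re : ℝ) + b * ((z j).im : ℝ) - c)
          + (a * ((z i).re : ℝ) + b * ((z i).im : ℝ) - c) + c := by
      rw [hC]
      simp only [Zsqrtd.re_sub, Zsqrtd.im_sub]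
      push_cast
      ring
    rw [h1]
    have t1 := abs_add_le ((a * ((z n).re : ℝ) + b * ((z n).im : ℝ) - c) - (a * ((z j).re : ℝ) + b * ((z j).im : ℝ) - c)
          + (a * ((z i).re : ℝ) + b * ((z i).im : ℝ) - c)) c
    have t2 := abs_add_le ((a * ((z n).re : ℝ) + b * ((z n).im : ℝ) - c) - (a * ((z j).re : ℝ) + b * ((z j).im : ℝ) - c))
          (a * ((z i).re : ℝ) + b * ((z i).im : ℝ) - c)
    have t3 := abs_sub (a * ((z n).re : ℝ) + b * ((z n).im : ℝ) - c) (a * ((z j).re : ℝ) + b * ((z j).im : ℝ) - c)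
    linarith
  have hW : 0 ≤ 3 * W + |c| := le_trans (abs_nonneg _) (hLbound 0)
  have G1 : ∀ n, (a ^ 2 + b ^ 2) * D ^ 2 < f n ^ 2 := by
    intro n
    have h1 : (R : ℝ) < ((z n - C).norm : ℝ) := by exact_mod_cast F4 n
    rw [norm_real'] at h1
    have h2 := hLbound n
    have h3 : (a * ((z n - C).re : ℝ) + b * ((z n - C).im : ℝ)) ^ 2 ≤ (3 * W + |c|) ^ 2 := by
      apply sq_le_sq'
      · have := neg_abs_le (a * ((z n - C).re : ℝ) + b * ((z n - C).im : ℝ)); linarith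
      · have := le_abs_self (a * ((z n - C).re : ℝ) + b * ((z n - C).im : ℝ)); linarith
    have h4 : (a * ((z n - C).re : ℝ) + b * ((z n - C).im : ℝ)) ^ 2 + f n ^ 2
        = (a ^ 2 + b ^ 2) * (((z n - C).re : ℝ) ^ 2 + ((z n - C).im : ℝ) ^ 2) := by
      simp only [hf]; ring
    have h5 : (a ^ 2 + b ^ 2) * (R : ℝ)
        < (a ^ 2 + b ^ 2) * (((z n - C).re : ℝ) ^ 2 + ((z n - C).im : ℝ) ^ 2) :=
      mul_lt_mul_of_pos_left h1 hρ
    linarith
  have G2 : ∀ n, (f (n + 1) - f n) ^ 2 ≤ (a ^ 2 + b ^ 2) * D ^ 2 := by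
    intro n
    have h1 : ((z (n + 1) - z n).norm : ℝ) ≤ D ^ 2 := by
      rw [norm_real, GaussianInt.toComplex_sub]
      have e1 := hstep n
      have e2 := norm_nonneg ((z (n + 1) : ℂ) - (z n : ℂ))
      nlinarith
    rw [norm_real'] at h1
    have h2 : f (n + 1) - f n = -b * ((z (n + 1) - z n).re : ℝ) + a * ((z (n + 1) - z n).im : ℝ) := by
      simp only [hf, Zsqrtd.re_sub, Zsqrtd.im_sub]
      push_cast
      ring
    rw [h2]
    have h3 : (-b * ((z (n + 1) - z n).re : ℝ) + a * ((z (n + 1) - z n).im : ℝ)) ^ 2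
        ≤ (a ^ 2 + b ^ 2) * (((z (n + 1) - z n).re : ℝ) ^ 2 + ((z (n + 1) - z n).im : ℝ) ^ 2) := by
      nlinarith [sq_nonneg (a * ((z (n + 1) - z n).re : ℝ) + b * ((z (n + 1) - z n).im : ℝ))]
    have h4 : (a ^ 2 + b ^ 2) * (((z (n + 1) - z n).re : ℝ) ^ 2 + ((z (n + 1) - z n).im : ℝ) ^ 2)
        ≤ (a ^ 2 + b ^ 2) * D ^ 2 := mul_le_mul_of_nonneg_left h1 hρ.le
    linarith
  have G3 := sign_const f ((a ^ 2 + b ^ 2) * D ^ 2) (by positivity) G1 G2
  have hi := G3 i
  have hj' := G3 j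
  have hfi : f i = 2 * (-b * ((z i).re : ℝ) + a * ((z i).im : ℝ))
        - (-b * ((z j).re : ℝ) + a * ((z j).im : ℝ)) := by
    simp only [hf, hC, Zsqrtd.re_sub, Zsqrtd.im_sub]
    push_cast
    ring
  have hfj : f j = -b * ((z i).re : ℝ) + a * ((z i).im : ℝ) := by
    simp only [hf, hC, Zsqrtd.re_sub, Zsqrtd.im_sub]
    push_cast
    ring
  rw [← hfi, ← hfj] at hs
  have h7 : 0 < (f 0 * f i) * (f 0 * f j) := mul_pos hi hj'
  have h8 : (f 0 * f i) * (f 0 * f j) = (f j * f i) * (f 0) ^ 2 := by ring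
  have h9 : 0 ≤ (f 0) ^ 2 := sq_nonneg _
  nlinarith

lemma finite_norm_le (K : ℤ) : {g : GaussianInt | g.norm ≤ K}.Finite := by
  have hsub : {g : GaussianInt | g.norm ≤ K} ⊆
      (fun p : ℤ × ℤ => (⟨p.1, p.2⟩ : GaussianInt)) '' (Set.Icc (-K) K ×ˢ Set.Icc (-K) K) := by
    intro g hg
    refine ⟨(g.re, g.im), ?_, rfl⟩
    simp only [Set.mem_prod, Set.mem_Icc]
    have h0 : g.re * g.re + g.im * g.im ≤ K := by
      have : g.norm ≤ K := hg
      rw [Zsqrtd.norm] at this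
      linarith
    have h1 := Int.le_self_sq g.re
    have h2 := Int.le_self_sq (-g.re)
    have h3 := Int.le_self_sq g.im
    have h4 := Int.le_self_sq (-g.im)
    refine ⟨⟨by nlinarith, by nlinarith⟩, ⟨by nlinarith, by nlinarith⟩⟩
  exact Set.Finite.subset
    (Set.Finite.image _ ((Set.finite_Icc _ _).prod (Set.finite_Icc _ _))) hsub

theorem result (a b c W D : ℝ) (hab : a ≠ 0 ∨ b ≠ 0)
    (z : ℕ → GaussianInt) (hinj : Function.Injective z) (hp : ∀ n, Prime (z n))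
    (hstep : ∀ n, ‖((z (n + 1) : GaussianInt) : ℂ) - (z n : ℂ)‖ ≤ D)
    (hstrip : ∀ n, |a * ((z n).re : ℝ) + b * ((z n).im : ℝ) - c| ≤ W) : False := by
  have hρ : 0 < a ^ 2 + b ^ 2 := by rcases hab with h | h <;> positivity
  have hD : 0 ≤ D := le_trans (norm_nonneg _) (hstep 0)
  obtain ⟨R, hR⟩ := exists_nat_ge
    (max ((1 + D) ^ 2) (((3 * W + |c|) ^ 2 + (a ^ 2 + b ^ 2) * D ^ 2) / (a ^ 2 + b ^ 2)))
  have hR1 : (1 + D) ^ 2 ≤ R := le_trans (le_max_left _ _) hR
  have hR2 : (3 * W + |c|) ^ 2 + (a ^ 2 + b ^ 2) * D ^ 2 ≤ (a ^ 2 + b ^ 2) * R := by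
    have h1 := le_trans (le_max_right _ _) hR
    rw [div_le_iff₀ hρ] at h1
    linarith
  have hfin : ∀ K : ℤ, {n | (z n).norm ≤ K}.Finite :=
    fun K => Set.Finite.preimage (f := z) hinj.injOn (finite_norm_le K)
  obtain ⟨n0, hn0⟩ := (hfin R).bddAbove
  set z' : ℕ → GaussianInt := fun n => z (n + (n0 + 1)) with hz'
  have hinj' : Function.Injective z' := by
    intro m n hmn
    have := hinj hmn
    omega
  have hbig : ∀ n, (R : ℤ) < (z' n).norm := by
    intro n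
    by_contra h
    have h1 : (z (n + (n0 + 1))).norm ≤ (R : ℤ) := not_lt.mp h
    have h2 := hn0 h1
    omega
  have hfin' : ∀ K : ℤ, {n | (z' n).norm ≤ K}.Finite :=
    fun K => Set.Finite.preimage (f := z') hinj'.injOn (finite_norm_le K)
  have hstrip' : ∀ n, |a * ((z' n).re : ℝ) + b * ((z' n).im : ℝ) - c| ≤ W :=
    fun n => hstrip _
  have hstep' : ∀ n, ‖((z' (n + 1) : GaussianInt) : ℂ) - (z' n : ℂ)‖ ≤ D := by
    intro n
    have := hstep (n + (n0 + 1))
    simpa [hz', add_right_comm] using this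
  set S : ℕ → ℝ := fun n => -b * ((z' n).re : ℝ) + a * ((z' n).im : ℝ) with hS
  -- only finitely many walk points have bounded longitudinal coordinate
  have hSfin : ∀ K : ℝ, {n | |S n| ≤ K}.Finite := by
    intro K
    obtain ⟨K', hK'⟩ := exists_nat_ge (((W + |c|) ^ 2 + K ^ 2) / (a ^ 2 + b ^ 2))
    refine (hfin' K').subset ?_
    intro n hn
    have hn' : |S n| ≤ K := hn
    have h1 : (a * ((z' n).re : ℝ) + b * ((z' n).im : ℝ)) ^ 2 + S n ^ 2
        = (a ^ 2 + b ^ 2) * ((z' n).norm : ℝ) := by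
      rw [norm_real']; simp only [hS]; ring
    have h2 : |a * ((z' n).re : ℝ) + b * ((z' n).im : ℝ)| ≤ W + |c| := by
      have e1 := hstrip' n
      have e2 := abs_add_le (a * ((z' n).re : ℝ) + b * ((z' n).im : ℝ) - c) c
      have e3 : a * ((z' n).re : ℝ) + b * ((z' n).im : ℝ) - c + c
        = a * ((z' n).re : ℝ) + b * ((z' n).im : ℝ) := by ring
      rw [e3] at e2
      linarith
    have h3 : (a * ((z' n).re : ℝ) + b * ((z' n).im : ℝ)) ^ 2 ≤ (W + |c|) ^ 2 :=
      sq_le_sq' (by have := neg_abs_le (a * ((z' n).re : ℝ) + b * ((z' n).im : ℝ)); linarith)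
        (by have := le_abs_self (a * ((z' n).re : ℝ) + b * ((z' n).im : ℝ)); linarith)
    have h4 : S n ^ 2 ≤ K ^ 2 :=
      sq_le_sq' (by have := neg_abs_le (S n); linarith) (by have := le_abs_self (S n); linarith)
    rw [div_le_iff₀ hρ] at hK'
    have h5 : (a ^ 2 + b ^ 2) * ((z' n).norm : ℝ) ≤ (a ^ 2 + b ^ 2) * (K' : ℝ) := by linarith
    have h6 : ((z' n).norm : ℝ) ≤ (K' : ℝ) := le_of_mul_le_mul_left h5 hρ
    show (z' n).norm ≤ (K' : ℤ)
    exact_mod_cast h6
  -- pigeonhole modulo R!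
  have : NeZero R.factorial := ⟨(Nat.factorial_pos R).ne'⟩
  obtain ⟨y, hy⟩ := Finite.exists_infinite_fiber
    (fun n : ℕ => ((((z' n).re : ℤ) : ZMod R.factorial), (((z' n).im : ℤ) : ZMod R.factorial)))
  set I : Set ℕ := (fun n : ℕ => ((((z' n).re : ℤ) : ZMod R.factorial),
    (((z' n).im : ℤ) : ZMod R.factorial))) ⁻¹' {y} with hI
  have hIinf : I.Infinite := Set.infinite_coe_iff.mp hy
  have hcong : ∀ i ∈ I, ∀ j ∈ I, ((R.factorial : ℤ) : GaussianInt) ∣ z' j - z' i := by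
    intro i hi j hj
    have hi' : ((((z' i).re : ℤ) : ZMod R.factorial), (((z' i).im : ℤ) : ZMod R.factorial)) = y := hi
    have hj' : ((((z' j).re : ℤ) : ZMod R.factorial), (((z' j).im : ℤ) : ZMod R.factorial)) = y := hj
    rw [← hj'] at hi'
    have h1 := (Prod.ext_iff.mp hi').1
    have h2 := (Prod.ext_iff.mp hi').2
    simp only at h1 h2
    rw [ZMod.intCast_eq_intCast_iff_dvd_sub] at h1 h2
    rw [Zsqrtd.intCast_dvd]
    exact ⟨by simpa using h1, by simpa using h2⟩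
  have hfinal : ∀ i ∈ I, ∀ j ∈ I, ¬ (S i * (2 * S i - S j) < 0) := by
    intro i hi j hj hs
    exact core a b c W D hρ hD z' (fun n => hp _) hstep' hstrip' R hR1 hR2 hbig i j
      (hcong i hi j hj) hs
  -- choose two far apart points of the fibre on the same side
  have hsplit : I ⊆ (I ∩ {n | 0 < S n}) ∪ (I ∩ {n | S n < 0}) ∪ {n | |S n| ≤ 0} := by
    intro n hn
    rcases lt_trichotomy (S n) 0 with h | h | h
    · exact Or.inl (Or.inr ⟨hn, h⟩)
    · refine Or.inr ?_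
      show |S n| ≤ 0
      rw [h]; simp
    · exact Or.inl (Or.inl ⟨hn, h⟩)
  have hinf2 : ((I ∩ {n | 0 < S n}) ∪ (I ∩ {n | S n < 0})).Infinite := by
    by_contra hcon
    rw [Set.not_infinite] at hcon
    exact hIinf ((hcon.union (hSfin 0)).subset hsplit)
  rcases Set.infinite_union.mp hinf2 with hpos | hneg
  · obtain ⟨i, hi⟩ := hpos.nonempty
    obtain ⟨j, hj⟩ := (hpos.sdiff (hSfin (2 * S i))).nonempty
    have hi2 : 0 < S i := hi.2
    have hj2 : 0 < S j := hj.1.2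
    have hj3 : ¬ |S j| ≤ 2 * S i := hj.2
    rw [abs_of_pos hj2] at hj3
    refine hfinal i hi.1 j hj.1.1 ?_
    nlinarith
  · obtain ⟨i, hi⟩ := hneg.nonempty
    obtain ⟨j, hj⟩ := (hneg.sdiff (hSfin (-(2 * S i)))).nonempty
    have hi2 : S i < 0 := hi.2
    have hj2 : S j < 0 := hj.1.2
    have hj3 : ¬ |S j| ≤ -(2 * S i) := hj.2
    rw [abs_of_neg hj2] at hj3
    refine hfinal i hi.1 j hj.1.1 ?_
    nlinarith

end Vale.Agent.Results.P015.StripAnyLine
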