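import Mathlib
import Vale.Agent.Lib.P015.Walls

/-!
# P015: no bounded-step walk on Gaussian primes in a slowly widening strip around any line
-/

namespace Vale.Agent.Results.P015.WideningStripGeneral

theorem result (a b c D : ℝ) (hab : a ^ 2 + b ^ 2 = 1) (f : ℝ → ℝ) (x₁ : ℝ)
    (hmono : MonotoneOn f (Set.Ici x₁)) (hf0 : ∀ x, x₁ ≤ x → 0 ≤ f x)
    (hG : ∀ K : ℝ, 1 ≤ K →
      ∃ x, x₁ ≤ x ∧ 0 < x ∧ K * (f x + K) * Real.log (f x + K) ≤ Real.log x)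
    (z : ℕ → GaussianInt) (hinj : Function.Injective z) (hp : ∀ n, Prime (z n))
    (hstep : ∀ n, ‖((z (n + 1) : GaussianInt) : ℂ) - (z n : ℂ)‖ ≤ D)
    (hnear : ∀ᶠ n in Filter.atTop,
      |a * ((z n).re : ℝ) + b * ((z n).im : ℝ) - c| ≤ f ‖(z n : ℂ)‖) : False :=
  Vale.Agent.Lib.P015.Walls.general a b c D hab f x₁ hmono hf0 hG z hinj hp hstep hnear

end Vale.Agent.Results.P015.WideningStripGeneral
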